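import Vale.Agent.P352L.Gd.Pub
import Vale.Agent.P352L.Final
import Vale.Agent.P352X.CL.W
import Vale.Agent.P352X.EH.FSG

/-!
# P352L, block Gd: theories with field reconstruction, logarithms allowed everywhere
-/

set_option linter.all false

open Filter Topology
open scoped ComplexConjugate

namespace Vale.Agent.P352L.Gd

open Vale.Agent.P352X
open Vale.Agent.P352 Vale.Agent.P352.GF Vale.Agent.P352.BW Vale.Agent.P352.H246
open Vale.Agent.P352.H496 Vale.Agent.P352.H755 Vale.Agent.P352.H15 Vale.Agent.P352X.Fss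
open UniformSpace (Completion)
open Complex (I)

noncomputable section

variable {D : Type*} [NormedAddCommGroup D] [InnerProductSpace ℂ D] {Q : Theory D}
  {A : (V → V) → D → D} {T : Ix → Ix → Fld D} {B : Fld D} {f : Fn} {s : ℝ}
  {F : Finset (ℂ × ℕ)} {C : ℂ × ℕ → Fld D}

theorem rder (g : Gnr Q A) {s : ℝ → ℝ} {L : ℝ → Ix → V} {a : ℝ → V} {w : Ix → V} {r : ℝ} {y : V}
    (K : H746.Crv s L a w r y) {X : V → V}
    (hX : ∀ z n, X z n = y n + r * z n + ∑ m, z m * w m n) (v : D) :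
    HasDerivAt (fun e => Q.U (s e) (L e) (a e) v) (I • A X v) 0 :=
  g s L a X v K.s0 K.L0 K.a0 (fun e => ⟨K.sp e, K.lor e⟩) fun n x => K.dX hX n x

/-- the generators are linear -/
def rgen (g : Gnr Q A) {r : ℝ} {X : V → V} (hX : IsSim r X) : D →ₗ[ℂ] D where
  toFun := A X
  map_add' v w := by
    obtain ⟨y, w', hw, hX⟩ := hX
    obtain ⟨s, L, a, K⟩ := H746.exists_crv hw r y
    have h1 := (rder g K hX v).add (rder g K hX w)
    have h2 := rder g K hX (v + w)
    simp only [fun e => U_add (Q := Q) (K.sp e) (K.lor e) (a e) v w] at h2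
    refine smul_right_injective D Complex.I_ne_zero ?_
    simp only [smul_add]
    exact h2.unique h1
  map_smul' z v := by
    obtain ⟨y, w', hw, hX⟩ := hX
    obtain ⟨s, L, a, K⟩ := H746.exists_crv hw r y
    have h1 := (rder g K hX v).const_smul z
    have h2 := rder g K hX (z • v)
    simp only [fun e => U_smul (Q := Q) (K.sp e) (K.lor e) (a e) z v] at h2
    refine smul_right_injective D Complex.I_ne_zero ?_
    simp only [RingHom.id_apply]
    rw [smul_comm]
    exact h2.unique h1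

theorem rconj (R : G.M1 Q) (g : Gnr Q A) (hs : 0 < s) {y : V} {w : Ix → V}
    (hw : ∀ m n, eta n * w m n = -(eta m * w n m)) {X X' : V → V}
    (hX : ∀ z n, X z n = (s • y) n + 0 * z n + ∑ m, z m * w m n)
    (hX' : ∀ z n, X' z n = y n + 0 * z n + ∑ m, z m * w m n) (v : D) :
    u Q s hs (A X' v) = A X (u Q s hs v) := by
  obtain ⟨s', L, a, K⟩ := H746.exists_crv hw 0 y
  have K' : H746.Crv s' L (fun e => s • a e) w 0 (s • y) :=
    ⟨K.s0, K.L0, by simp [K.a0], K.sp, K.lor, K.ds, K.dL, fun n => (K.da n).const_mul s⟩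
  have h1 := hasDerivAt_iso (U_add hs H496.isLor_one 0) (U_smul hs H496.isLor_one 0)
    (fun v => H246.U_nrm0 (Q := Q) hs H496.isLor_one 0 v) (rder g K hX' v)
  have h2 := rder g K' hX (u Q s hs v)
  have e : (fun e => Q.U s GF.one 0 (Q.U (s' e) (L e) (a e) v)) =
      fun e => Q.U (s' e) (L e) (s • a e) (u Q s hs v) := by
    funext e
    refine (R _ _ _ _ _ _ v hs (K.sp e) H496.isLor_one (K.lor e) (.inl rfl)).trans
      (Eq.trans ?_ (R _ _ _ _ _ _ v (K.sp e) hs (K.lor e) H496.isLor_one (.inr rfl)).symm)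
    have : sim (s' e) (L e) (s • a e) 0 = s • a e := by
      funext n
      simp [sim]
    simp only [this, sim_dil, zero_add, one_smul, mul_comm s]
    simp only [GF.one, N86.c1_bas]
  rw [e] at h1
  refine smul_right_injective D Complex.I_ne_zero ?_
  exact (map_smul (u Q s hs) I _).symm.trans (h1.unique h2)

theorem rdl (R : G.M1 Q) (g : Gnr Q A) (hT : Stress0 Q T) (hs : 0 < s) (hP : ND.PCh Q T A)
    (h : Scl Q B F C) {G : ℝ → Fn} (hG : IsCutoff G) {X : V → V}
    (hX : IsSim 0 X) (hf : IsTest f) (hc : HasCompactSupport f) (v w : D) :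
    Tendsto (fun r => inner ℂ w (ND.cur (fun m n => dl Q s hs (T m n)) X (G r) (B f v) -
      B f (ND.cur (fun m n => dl Q s hs (T m n)) X (G r) v))) atTop
      (𝓝 (inner ℂ w (A X (B f v) - B f (A X v)))) := by
  have hb := fun m n => Q.bose_fld _ (hT.bose m n)
  have s0 : (s : ℂ) ≠ 0 := Complex.ofReal_ne_zero.2 hs.ne'
  set X' : V → V := fun z => s⁻¹ • X (s • z) with hX'
  obtain ⟨y, w', h1, h2⟩ := id hX
  have h3 : ∀ z n, X' z n = (s⁻¹ • y) n + 0 * z n + ∑ m, z m * w' m n := fun z n => by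
    simp only [hX', Pi.smul_apply, h2, smul_eq_mul, mul_assoc, ← Finset.mul_sum]
    field_simp
  have hX1 : IsSim 0 X' := ⟨_, w', h1, h3⟩
  have eP : ∀ z, u Q s hs (rgen g hX1 (u Q s⁻¹ (inv_pos.2 hs) z)) = A X z := fun z => by
    refine (rconj R g hs h1 (X := X) (by rw [smul_inv_smul₀ hs.ne']; exact h2) h3 _).trans ?_
    rw [Fss.G.u_inv R hs z]
  have l := tendsto_finset_sum F fun d _ => (hP _ X' _ _ (u Q s⁻¹ (inv_pos.2 hs) v)
    (u Q s⁻¹ (inv_pos.2 hs) w) (cut_ds hG hs) hX1 (h.1 d).1 (ds_test hs hf)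
    (ds_cpt hs hc)).const_mul (CL.zz s d)
  convert l.congr' ((isTest_cutoff hG).mono fun r hr => ?_) using 2
  · rw [← eP, ← eP]
    exact CL.comm h R hs hf (rgen g hX1) v w
  · have ht : IsTest fun x => (s : ℂ) * ds s (G r) x := Ap.sw_cmul s (ds_test hs hr)
    have e : ∀ z, ND.cur (fun m n => dl Q s hs (T m n)) X (G r) z =
        u Q s hs (curL hb hX1 ht (u Q s⁻¹ (inv_pos.2 hs) z)) := fun z => by
      rw [curL_apply, ND.cur, ND.cur, map_sum]
      refine Finset.sum_congr rfl fun n _ => ?_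
      rw [Fss.dl]
      congr 2
      funext x
      simp only [ds_apply, hX', Pi.smul_apply, smul_eq_mul]
      push_cast
      field_simp
    rw [e, e, CL.comm h R hs hf]
    simp only [curL_apply]

/-- the component of dimension four has the charges of `T` -/
theorem rpch (R : G.M1 Q) (g : Gnr Q A) (hF : FSL Q) (hT : Stress0 Q T) (hP : ND.PCh Q T A)
    {T' : Ix → Ix → Fld D}
    (h2 : ∀ m n, ∃ F C, (4, 0) ∈ F ∧ Scl Q (T m n) F C ∧ T' m n = C (4, 0)) :
    ND.PCh Q T' A := fun G X B f v w hG hX hB hf hc' => by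
  classical
  choose F C h4 hd he using h2
  obtain ⟨S, a, ha⟩ := CL.vg (Finset.univ.biUnion fun p : Ix × Ix => F p.1 p.2) (4, 0)
  have hs : ∀ m n, F m n ⊆ Finset.univ.biUnion fun p : Ix × Ix => F p.1 p.2 := fun m n d hd =>
    Finset.mem_biUnion.2 ⟨(m, n), Finset.mem_univ _, hd⟩
  have c1 : ∑ t ∈ S, a t = 1 := by simpa [CL.pg, CL.ph] using ha _ (hs o o (h4 o o))
  have fm : ∀ m n f v, IsTest f → T' m n f v =
      ∑ t ∈ S, a t • dl Q _ (Real.exp_pos t) (T m n) f v := fun m n f v hf => by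
    rw [he]
    exact CL.sfm (hd m n) R (h4 m n) (fun d hd => ha d (hs m n hd)) hf v
  obtain ⟨F', C', b⟩ := hF B hB
  have := tendsto_finset_sum S fun t _ =>
    (rdl R g hT (Real.exp_pos t) hP b hG hX hf hc' v w).const_mul (a t)
  rw [← Finset.sum_mul, c1, one_mul] at this
  refine this.congr' ((isTest_cutoff hG).mono fun r hr => ?_)
  have e : ∀ z, ND.cur T' X (G r) z = ∑ t ∈ S, a t •
      ND.cur (fun m n => dl Q _ (Real.exp_pos t) (T m n)) X (G r) z := fun z => by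
    simp only [ND.cur, fun n => fm o n _ z (test_sim0 hX hr n), Finset.smul_sum]
    exact Finset.sum_comm
  simp only [e, ← fl_apply hB hf, map_sum, map_smul, ← Finset.sum_sub_distrib, ← smul_sub,
    inner_sum, inner_smul_right]

open CA.G.LG CL Fss.G in
/-- **theories with field reconstruction** -/
theorem finalR {D' : Type*} [NormedAddCommGroup D'] [InnerProductSpace ℂ D'] (Q : Theory D)
    (T : Ix → Ix → Fld D) (hT : Stress0 Q T) (A : (V → V) → D → D) (hA : ND.PCh Q T A)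
    (hG : TfGen Q) (hF : FSL Q) (N : Set V → VonNeumannAlgebra (Completion D)) (hN : LNm Q A N)
    (hU : L.UVac Q) (hR : L.Rec Q) :
    NoLog Q T ∧ ∃ S J, Q.IsStress S ∧ IsImpr Q T (improveJ S J) ∧
      (∀ Q' : Theory D, IsEnl Q Q' → L.CInv Q' id S J) ∧
      ∀ (Q' : Theory D') i G T' A', Sect Q Q' i → Gr Q' G → Stress0 Q' T' → Gnr Q' A' →
        ND.PCh Q' T' A' → FSL Q' → (∀ m n, Xt i (T m n) (T' m n)) → NoLog Q' T' ∧
          ∃ S' J', Q'.IsStress S' ∧ (∀ m n, Xt i (S m n) (S' m n)) ∧ (∀ m, Xt i (J m) (J' m)) ∧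
            IsImpr Q' T' (improveJ S' J') ∧ L.CInv Q' G S' J' := by
  have hL := P352L.nolog Q T hT A hA hG hF N hN hU
  have R := m1_rep hN.toRep
  obtain ⟨S, h1, h2, h3⟩ := fssL R hF hT hL
  obtain ⟨h4, h5⟩ := h3 A hN.toRep hA
  obtain ⟨J, h6, h7⟩ := final5 (D' := D') Q A S h4 hG N hN hU h1 hR
  have h8 := h6 Q ⟨rfl, rfl, fun _ h => h, fun _ h => h⟩
  refine ⟨hL, S, J, h1, h5 _ h8.impr, h6, fun Q' i G T' A' h g hT' gn hP hF' hx => ?_⟩
  have hL' := CA.G.LG.nolog h R (m1_gr g) hT hT' hF' hx hL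
  obtain ⟨S', a1, a2, -⟩ := fssL (m1_gr g) hF' hT' hL'
  have a3 : ∀ m n, Xt i (S m n) (S' m n) := fun m n => by
    obtain ⟨F, C, b1, b2, b3⟩ := h2 m n
    obtain ⟨F', C', b4, b5, b6⟩ := a2 m n
    rw [b3, b6]
    exact xt h R (m1_gr g) (hx m n) b2 b5 b1 b4
  obtain ⟨J', a4, a5⟩ := h7 Q' i G S' h g a1 a3
  exact ⟨hL', S', J', a1, a3, a4,
    Fss.impr hT' hP a1 (rpch (m1_gr g) gn hF' hT' hP a2) a5.impr, a5⟩

end

end Vale.Agent.P352L.Gd
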