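import Vale.Agent.P352L.StA
import Vale.Agent.P352X.EH.W

/-!
# P352L, block Gd: the linear hull of a graded theory and its family of stress tensors
-/

set_option linter.all false

open Filter Topology MeasureTheory
open scoped ComplexConjugate

namespace Vale.Agent.P352L.Gd

open Vale.Agent.P352X
open Vale.Agent.P352 Vale.Agent.P352.GF Vale.Agent.P352.BW Vale.Agent.P352.H246
open Vale.Agent.P352.H496 Vale.Agent.P352.H755 Vale.Agent.P352.H15
open UniformSpace (Completion)
open StA

noncomputable section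

variable {D : Type*} [NormedAddCommGroup D] [InnerProductSpace ℂ D]

section hull

variable {Q : Theory D} {G : D → D} {A : (V → V) → D → D} {B : Fld D} {f g : Fn}

theorem gr_lin (h : Gr Q G) : IsLinearMap ℂ G :=
  ⟨fun v w => ext_inner_right ℂ fun y => by simp only [h.herm, inner_add_left],
    fun z v => ext_inner_right ℂ fun y => by simp only [h.herm, inner_smul_left]⟩

theorem sp_par (h : Gr Q G) {P : Fld D → Prop} {e : ℂ}
    (hP : ∀ B, P B → ∀ v, B f (G v) = e • G (B f v)) (hB : B ∈ Sp P) (v : D) :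
    B f (G v) = e • G (B f v) :=
  sp_ind (p := fun B => B f (G v) = e • G (B f v)) hB (fun B hB => hP B hB v)
    (by simp [(gr_lin h).map_zero]) fun B C a h1 h2 => by
      simp only [h1, h2, (gr_lin h).map_add, (gr_lin h).map_smul]
      module

theorem sp_split (h : Gr Q G) (hB : B ∈ Sp Q.fld) : ∃ C C', C ∈ Sp Q.bose ∧ C' ∈ Sp (Fer Q G) ∧
    ∀ f v, IsTest f → B f v = C f v + C' f v :=
  sp_ind (p := fun B => ∃ C C', C ∈ Sp Q.bose ∧ C' ∈ Sp (Fer Q G) ∧
      ∀ f v, IsTest f → B f v = C f v + C' f v) hB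
    (fun B hB => by
      obtain ⟨C, C', h1, h2, h3⟩ := h.split B hB
      exact ⟨C, C', sp_of h1, sp_of h2, h3⟩)
    ⟨0, 0, zero_mem _, zero_mem _, fun _ _ _ => by simp⟩
    fun B E a ⟨C, C', h1, h2, h3⟩ ⟨F, F', k1, k2, k3⟩ =>
      ⟨C + a • F, C' + a • F', add_mem h1 (Submodule.smul_mem _ _ k1),
        add_mem h2 (Submodule.smul_mem _ _ k2), fun f v hf => by
          simp only [Pi.add_apply, Pi.smul_apply, h3 f v hf, k3 f v hf]
          module⟩

theorem gr_hull (h : Gr Q G) : Gr (hull Q) G := by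
  have ev : ∀ B f v, B ∈ Sp Q.bose → IsTest f → B f (G v) = G (B f v) := fun B f v hB hf => by
    simpa using sp_par h (e := 1) (fun B hB v => by simpa using h.bose B f v hB hf) hB v
  have od : ∀ B f v, B ∈ Sp (Fer Q G) → IsTest f → B f (G v) = -G (B f v) := fun B f v hB hf => by
    simpa using sp_par h (e := -1) (fun B hB v => by simpa using hB.2 f v hf) hB v
  have sub : ∀ B, B ∈ Sp (Fer Q G) → B ∈ Sp Q.fld := fun B hB =>
    Submodule.span_mono (fun B (h : Fer Q G B) => h.1) hB
  have fer : ∀ B, Fer (hull Q) G B → ∃ C ∈ Sp (Fer Q G), ∀ f v, IsTest f → B f v = C f v :=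
    fun B hB => by
      obtain ⟨C, C', h1, h2, h3⟩ := sp_split h hB.1
      refine ⟨C', h2, fun f v hf => ?_⟩
      have e := hB.2 f v hf
      rw [h3 _ _ hf, h3 _ _ hf, ev _ _ _ h1 hf, od _ _ _ h2 hf, (gr_lin h).map_add] at e
      have z : G (C f v) = 0 := (smul_eq_zero.1 (show (2 : ℂ) • G (C f v) = 0 by
        linear_combination (norm := module) e)).resolve_left two_ne_zero
      rw [h3 _ _ hf, ← h.inv (C f v), z, (gr_lin h).map_zero, zero_add]
  refine ⟨h.inv, h.herm, ev, fun B hB => ?_, fun B C f g v hB hC hf hg hs => ?_, h.GU, h.mul⟩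
  · obtain ⟨C, C', h1, h2, h3⟩ := sp_split h hB
    exact ⟨C, C', h1, ⟨sub _ h2, fun f v hf => od _ f v h2 hf⟩, h3⟩
  · obtain ⟨B, b, e1⟩ := fer B hB
    obtain ⟨C, c, e2⟩ := fer C hC
    simp only [e1 _ _ hf, e2 _ _ hg]
    have lc := sp_fl (sub _ c) hg
    refine sp_ind (p := fun B => B f (C g v) = -C g (B f v)) b (fun B hB => ?_)
      (by simp [lc.map_zero]) fun B E a h1 h2 => by
        simp only [h1, h2, lc.map_add, lc.map_smul]
        module
    have lb := (Fss.fl hB.1 hf).isLinear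
    exact sp_ind (p := fun C => B f (C g v) = -C g (B f v)) c
      (fun C hC => h.anti B C f g v hB hC hf hg hs)
      (lb.map_zero.trans neg_zero.symm) fun C E a h1 h2 =>
        ((lb.map_add _ _).trans (congrArg₂ _ h1 ((lb.map_smul _ _).trans (congrArg _ h2)))).trans
          (by module)

theorem lng {Γ : Completion D →L[ℂ] Completion D} {N : Set V → VonNeumannAlgebra (Completion D)}
    (h : LNg Q G A Γ N) : LNg (hull Q) G A Γ N := by
  refine ⟨gr_hull h.toGr, h.vac, h.add, h.der, h.ext, fun O B f hB hf => ?_, h.mono, h.cov, h.gam,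
    h.loc⟩
  refine sp_ind (p := fun B => Aff (N O) (B f)) hB (fun B hB => h.fld O B f hB hf)
    ⟨fun _ => 0, by simp, by simp [Completion.coe_zero]⟩ fun B C a ⟨B', b, h1⟩ ⟨C', c, h2⟩ =>
      ⟨fun w => B' w + conj a • C' w, fun v w => ?_, fun Y hY v w => ?_⟩
  · simp only [inner_add_left, inner_smul_left, inner_add_right, inner_smul_right, b, c]
  · simp only [Completion.coe_add, Completion.coe_smul, map_add, map_smul, inner_add_left,
      inner_smul_left, inner_add_right, inner_smul_right, h1 Y hY, h2 Y hY, Complex.conj_conj]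

theorem en_hull (k : ℕ) : ∀ v, en (hull Q) k v = en Q k v := by
  induction k with
  | zero => exact fun v => rfl
  | succ k ih => exact fun v => by simp only [en, ih]; rfl

theorem en_nn (k : ℕ) : ∀ v, 0 ≤ en Q k v := by
  induction k with
  | zero => exact fun v => norm_nonneg v
  | succ k ih => exact fun v => add_nonneg (ih v) (Finset.sum_nonneg fun m _ => ih _)

theorem en_mono {k k' : ℕ} (h : k ≤ k') (v : D) : en Q k v ≤ en Q k' v :=
  monotone_nat_of_le_succ (f := fun k => en Q k v)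
    (fun k => le_add_of_nonneg_right (Finset.sum_nonneg fun m _ => en_nn k _)) h

theorem ebd (h : EBd Q) : EBd (hull Q) := fun B hB => by
  simp only [en_hull]
  refine sp_ind (p := fun B => ∃ k, ∀ f, In Set.univ f → ∃ C : ℝ, ∀ v, ‖B f v‖ ≤ C * en Q k v) hB
    h ⟨0, fun _ _ => ⟨0, by simp⟩⟩ fun B E a ⟨k, h1⟩ ⟨l, h2⟩ => ⟨max k l, fun f hf => ?_⟩
  obtain ⟨C, h1⟩ := h1 f hf
  obtain ⟨C', h2⟩ := h2 f hf
  refine ⟨|C| + ‖a‖ * |C'|, fun v => (norm_add_le _ _).trans ?_⟩
  rw [norm_smul, add_mul, mul_assoc]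
  exact add_le_add ((h1 v).trans (mul_le_mul (le_abs_self _) (en_mono (le_max_left _ _) v)
    (en_nn _ _) (abs_nonneg _))) (mul_le_mul_of_nonneg_left ((h2 v).trans (mul_le_mul
      (le_abs_self _) (en_mono (le_max_right _ _) v) (en_nn _ _) (abs_nonneg _))) (norm_nonneg _))

end hull

/-! ### the family -/

open Fss hiding U_dil u_inv inv_u u_adj dl_herm dl_cov dl_cons dl_charge dl_pch
open Fss.G CL

variable {c : EG.Cg D} {T : Ix → Ix → Fld D}

theorem fam (hF : FSL c.Q) (hT : Stress0 c.Q T) (hP : ND.PCh c.Q T c.A)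
    {F : Ix → Ix → Finset (ℂ × ℕ)} {C : Ix → Ix → ℂ × ℕ → Fld D}
    (hC : ∀ m n, Scl c.Q (T m n) (F m n) (C m n)) :
    ∃ n0, Fam (hull c.Q) (fun τ m n => TT (F m n) (C m n) τ) n0 ∧
      ∀ τ, ND.PCh (hull c.Q) (fun m n => TT (F m n) (C m n) τ) c.A := by
  have R := EG.Fsg.m1 c
  obtain ⟨M, S, e, c1, hc⟩ := ex_sel F
  have fm := fun τ m n f v (hf : IsTest f) => tt_fm (hC m n) R (hc m n).1 τ hf v
  have hb : ∀ τ m n, (hull c.Q).bose (TT (F m n) (C m n) τ) := fun τ m n =>
    Submodule.sum_mem _ fun p _ => Submodule.smul_mem _ _ (sp_of (((hC m n).1 p).2 (hT.bose m n)))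
  have hb' := fun τ m n => (hull c.Q).bose_fld _ (hb τ m n)
  have cv : ∀ τ m n L a f v, IsLor L → IsTest f → TT (F m n) (C m n) τ f (c.Q.U 1 L a v) =
      ∑ k, ∑ l, (L k m * L l n : ℂ) •
        c.Q.U 1 L a (TT (F k l) (C k l) τ (fun x => f (sim 1 L a x)) v) :=
    fun τ m n L a f v hL hf => by
      have t1 := Ap.test_sim one_pos hL a hf
      let W : D →ₗ[ℂ] D := ⟨⟨c.Q.U 1 L a, U_add one_pos hL a⟩, U_smul one_pos hL a⟩
      show _ = ∑ k, ∑ l, _ • W _
      simp only [fm _ _ _ _ _ t1, fm _ _ _ f _ hf, map_sum, map_smul, Finset.smul_sum,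
        dl_cov R hT _ m n hL a hf]
      rw [Finset.sum_comm]
      refine Finset.sum_congr rfl fun k _ => ?_
      rw [Finset.sum_comm]
      exact Finset.sum_congr rfl fun l _ => Finset.sum_congr rfl fun t _ => smul_comm _ _ _
  have dim : ∀ τ m n s (hs : 0 < s) f v, IsTest f → TT (F m n) (C m n) (τ + Real.log s) f
      (u c.Q s hs v) = u c.Q s hs (TT (F m n) (C m n) τ (ds s f) v) := fun τ m n s hs f v hf => by
    obtain ⟨s, rfl⟩ : ∃ t, Real.exp t = s := ⟨_, Real.exp_log hs⟩
    rw [Real.log_exp, fm _ _ _ _ _ hf, fm _ _ _ _ _ (ds_test hs hf), map_sum]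
    refine Finset.sum_congr rfl fun t _ => ?_
    have := dl_dl (B := T m n) (f := f) R s (τ + t) (u c.Q _ hs v)
    rw [Fss.dl, inv_u R] at this
    rw [map_smul, this]
    simp only [add_assoc, add_left_comm s]
  refine ⟨M, ⟨fun τ => ⟨hb τ, fun m n f v hf => ?_, fun m n f v w hf => ?_, cv τ,
    fun n f v hf => ?_, fun G n B f v w hG hB hf hc' => ?_⟩, fun τ m n s L a f v hs hL hf => ?_,
    fun m n f v hf => ?_⟩, fun τ G X B f v w hG hX hB hf hc' => ?_⟩
  · simp only [fm _ _ _ f v hf, Fss.dl, hT.symm m n _ _ (ds_test (Real.exp_pos _) hf)]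
  · rw [fm _ _ _ f v hf, tt_fm (hC m n) R (hc m n).2 τ (Ap.test_bar hf), sum_inner, inner_sum]
    exact Finset.sum_congr rfl fun t _ => by
      rw [inner_smul_left, inner_smul_right, dl_herm R hT _ m n hf]
  · simp only [fun m => fm τ m n _ v (Ap.test_pd m hf)]
    rw [Finset.sum_comm]
    simp only [← Finset.smul_sum, dl_cons R hT _ n hf, smul_zero, Finset.sum_const_zero]
  · refine lim_sp ((isTest_cutoff hG).mono fun r hr => sp_fl (hb' τ o n) hr) v w
      (fun B => (Complex.I * eta n) • B (pd n f) v) (smul_zero _) (fun B C a => by module)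
      (fun B hB => ?_) hB
    obtain ⟨_, _, h⟩ := hF B hB
    exact lim c1 hB hf _ (fun t r => Fss.dl c.Q _ (Real.exp_pos (τ + t)) (T o n) (G r)) v w _
      ((isTest_cutoff hG).mono fun r hr z => fm τ o n _ z hr) fun t =>
        charge R hT _ h hB hG n hf hc' v w
  · have t1 := Ap.test_sim one_pos hL a hf
    show TT _ _ _ f (c.Q.U s L a v) = ∑ k, ∑ l, _ • c.Q.U s L a _
    rw [← (U_dil R hs hL a v).2, cv _ m n L a f _ hL hf]
    refine Finset.sum_congr rfl fun k _ => Finset.sum_congr rfl fun l _ => ?_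
    rw [dim τ k l s hs _ v t1, (U_dil R hs hL a _).2,
      show ds s (fun x => f (sim 1 L a x)) = fun x => f (sim s L a x) from funext fun x => by
        rw [ds_apply]
        simp only [N86.c1_sim _ L a, simL_smul, one_smul]]
  · classical
    refine IsPol.of_poly (F m n) (fun p => if p.1 = 4 then (-Polynomial.X) ^ p.2 else 0)
      (fun p => C m n p f v) (fun p hp => ?_) fun τ => ?_
    · split_ifs
      · simpa [Polynomial.natDegree_pow] using ((hc m n).1 p hp).1.le
      · simp
    · rw [tt_apply]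
      refine Finset.sum_congr rfl fun p _ => ?_
      rw [← Complex.coe_smul, cf]
      split_ifs <;> simp
  · have l : IsLinearMap ℂ (c.A X) := (EG.Fsg.gen c hX).isLinear
    refine lim_sp ((isTest_cutoff hG).mono fun r hr => ?_) v w
      (fun B => c.A X (B f v) - B f (c.A X v)) ?_ (fun B C a => ?_) (fun B hB => ?_) hB
    · exact funext (curL_apply (hb' τ) hX hr) ▸ (curL (hb' τ) hX hr).isLinear
    · simpa using l.map_zero
    · simp only [l.map_add, l.map_smul]
      module
    obtain ⟨_, _, h⟩ := hF B hB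
    refine lim c1 hB hf _ (fun t r => ND.cur
      (fun m n => Fss.dl c.Q _ (Real.exp_pos (τ + t)) (T m n)) X (G r)) v w _
      ((isTest_cutoff hG).mono fun r hr z => ?_) fun t =>
        EG.H.dl_pch hT _ hP h hG hX hf hc' v w
    simp only [ND.cur, fun n => fm τ o n _ z (test_sim0 hX hr n), Finset.smul_sum]
    exact Finset.sum_comm

/-! ### the degenerate case -/

/-- a generator that commutes with the fields vanishes -/
theorem gen_zero {X : V → V} (hX : IsSim 0 X)
    (h : ∀ B f v, c.Q.fld B → In Set.univ f → c.A X (B f v) = B f (c.A X v)) (v : D) :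
    c.A X v = 0 := by
  have l : IsLinearMap ℂ (c.A X) := (EG.Fsg.gen c hX).isLinear
  obtain ⟨y, w', hw, hX⟩ := hX
  obtain ⟨s, L, a, K⟩ := H746.exists_crv hw 0 y
  have d := EG.Fsg.der (c := c) K hX
  have sy : ∀ v w, inner ℂ (c.A X v) w = inner ℂ v (c.A X w) := fun v w => by
    have h1 := (d v).inner ℂ (d w)
    simp only [fun e => c.Q.U_inner _ _ (a e) v w (K.sp e) (K.lor e)] at h1
    have h3 := h1.unique (hasDerivAt_const _ _)
    rw [H746.U_at0 K, H746.U_at0 K, inner_smul_right, inner_smul_left, Complex.conj_I] at h3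
    refine mul_left_cancel₀ Complex.I_ne_zero ?_
    linear_combination -h3
  have v0 : c.A X c.Q.vac = 0 := by
    have h1 := d c.Q.vac
    simp only [fun e => c.Q.U_vac _ _ (a e) (K.sp e) (K.lor e)] at h1
    exact (smul_eq_zero.1 (h1.unique (hasDerivAt_const _ _))).resolve_left Complex.I_ne_zero
  refine (dense_gen_univ c.Q).eq_zero_of_inner_right ℂ ?_
  rintro _ ⟨Y, Y', hY, rfl⟩
  rw [← sy, show c.A X (Y c.Q.vac) = 0 from ?_, inner_zero_left]
  induction hY with
  | one => exact v0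
  | add _ _ _ _ _ _ h1 h2 => rw [l.map_add, h1, h2, add_zero]
  | smul _ _ _ _ h1 => rw [l.map_smul, h1, smul_zero]
  | fld B _ g _ _ hB _ _ hg _ h1 => rw [h _ _ _ hB hg, h1]; exact (Fss.fl hB hg.1).map_zero

/-- if one spatial translation is trivial then the Hilbert space is one dimensional -/
theorem triv0 (hU : UVac c.Q) {i : Ix} (hi : i ≠ 0) (h : ∀ v, c.A (fun _ => bas i 1) v = 0)
    (v : D) : ∃ z : ℂ, v = z • c.Q.vac := by
  have R := EG.Fsg.m1 c
  let G : Submodule ℝ V := ⟨⟨⟨{a | ∀ (t : ℝ) v, c.Q.U 1 GF.one (t • a) v = v},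
    fun {a b} ha hb t v => by rw [smul_add, ← Uadd1, ha, hb]⟩,
    fun t v => by rw [smul_zero, U0]⟩, fun r a ha t v => by rw [smul_smul, ha]⟩
  have inv : ∀ L, IsLor L → ∀ a ∈ G, sim 1 L 0 a ∈ G := fun L hL a ha t v => by
    have hM := isLor_linv hL
    have e1 := R 1 _ 0 1 _ (t • sim 1 L 0 a) v one_pos one_pos hM H496.isLor_one (.inr rfl)
    have e2 := R 1 _ (t • a) 1 _ 0 v one_pos one_pos H496.isLor_one hM (.inl rfl)
    rw [ha] at e2
    simp only [simL_smul, N86.c1_linv hL, sim_dil, zero_add, one_smul, smul_zero, add_zero] at e1 e2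
    simp only [GF.one, N86.c1_bas] at e1 e2
    refine sub_eq_zero.1 (u_inj (Q := c.Q) hM ?_)
    rw [← ueI_apply one_pos hM, map_sub, ueI_apply, ueI_apply]
    exact sub_eq_zero.2 (e1.trans e2.symm)
  have st : ∀ j ≠ 0, ∀ x ∈ G, GF.mdot (nb j) x = 1 / 2 → na j ∈ G := fun j hj x hx e => by
    have h1 := inv _ (lor_bo hj true) x hx
    have h2 := inv _ (lor_bo hj false) x hx
    rw [bo, sim_bst, e] at h1 h2
    convert G.smul_mem (4 / 3) (G.sub_mem (G.add_mem (G.smul_mem 2 h1) h2) (G.smul_mem 3 hx))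
    simp only [if_true, Bool.false_eq_true, if_false]
    module
  have gi : bas i 1 ∈ G := fun r w => by
    have d : ∀ t : ℝ, HasDerivAt (fun e : ℝ => c.Q.U 1 GF.one (e • bas i 1) w) 0 t := fun t => by
      have := c.hN.der (fun _ => 1) (fun _ => GF.one) (fun e => e • bas i 1) (fun _ => bas i 1)
        (c.Q.U 1 GF.one (t • bas i 1) w) rfl rfl (zero_smul _ _)
        (fun _ => ⟨one_pos, H496.isLor_one⟩) fun n z => by
          simpa only [sim_dil, Pi.add_apply, Pi.smul_apply, smul_eq_mul, one_mul] using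
            (hasDerivAt_mul_const (x := (0 : ℝ)) (bas i 1 n)).add_const (z n)
      rw [h, smul_zero, ← sub_self t] at this
      simpa only [Uadd1, ← add_smul, sub_add_cancel] using this.comp_sub_const t t
    have := is_const_of_deriv_eq_zero (fun t => (d t).differentiableAt) (fun t => (d t).deriv) r 0
    rwa [zero_smul, U0] at this
  have g0 : bas 0 1 ∈ G := by
    simpa [na] using G.sub_mem (st i hi _ gi (by
      fin_cases i <;> simp [nb, bas, H496.gm] at hi ⊢)) gi
  have g1 : ∀ j, bas j 1 ∈ G := fun j => by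
    by_cases hj : j = 0
    · rwa [hj]
    · simpa [na] using G.sub_mem (st j hj _ g0 (by
        fin_cases j <;> simp [nb, bas, H496.gm] at hj ⊢)) g0
  have g2 : ∀ a w, c.Q.U 1 GF.one a w = w := fun a w => by
    have ha : a ∈ G := Ap.sum_bas a ▸ G.sum_mem fun m _ => G.smul_mem _ (g1 m)
    simpa only [one_smul] using ha 1 w
  obtain ⟨z, hz⟩ := hU v fun a => by rw [ue_coe one_pos H496.isLor_one, g2]
  exact ⟨z, Completion.coe_injective D (hz.trans (Completion.coe_smul _ _).symm)⟩

theorem triv (hU : UVac c.Q) (hT : Stress0 c.Q T) (hP : ND.PCh c.Q T c.A) {m n : Ix}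
    (h0 : ∀ f v, IsTest f → T m n f v = 0) (v : D) : ∃ z : ℂ, v = z • c.Q.vac := by
  have hb := fun m n => c.Q.bose_fld _ (hT.bose m n)
  set i : Ix := if n = 0 then if m = 0 then 1 else m else n with ei
  have hi : i ≠ 0 := by
    rw [ei]
    split_ifs <;> simp [*]
  have h1 : ∀ g w, IsTest g → T o i g w = 0 := fun g w hg => by
    refine alg1 (t := fun k l => T k l g w) (fun k l => hT.symm k l g w hg) m n (.inr (h0 g w hg))
      (y := 0) fun e => ?_
    have hL : IsLor (bo (if m = 0 then 1 else m) e) := lor_bo (by split_ifs <;> simp [*]) e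
    have t1 := Ap.test_sim one_pos (isLor_linv hL) 0 hg
    have := hT.cov m n _ 0 _ w hL t1
    simp only [h0 _ _ t1, N86.c1_linv hL] at this
    refine (u_inj (Q := c.Q) hL (Eq.trans ?_ this.symm)).symm
    rw [← ueI_apply one_pos hL]
    simp only [map_sum, map_smul, ueI_apply]
  refine triv0 hU hi (gen_zero (const_sim _) fun B f v hB hf => sub_eq_zero.1
    (ext_inner_left ℂ fun w => ?_)) v
  refine tendsto_nhds_unique (hP _ _ B f v w isCutoff_cutF (const_sim _) hB hf.1 hf.2.1)
    (tendsto_const_nhds.congr' ((isTest_cutoff isCutoff_cutF).mono fun r hr => ?_))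
  have : ∀ z, ND.cur T (fun _ => bas i 1) (cutF r) z = 0 := fun z =>
    Finset.sum_eq_zero fun k _ => by
      rw [lin1 (hb o k) hr]
      by_cases e : k = i
      · rw [e, h1 _ _ hr, smul_zero]
      · simp [bas, e]
  simp only [this, ← Fss.fl_apply hB hf.1, map_zero, sub_zero]

end

end Vale.Agent.P352L.Gd
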