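import Vale.Agent.P352L.Gd.SEC
import Vale.Agent.P352X.EG.NB

/-!
# P352L, block Gd: the net of the sector
-/

set_option linter.all false

open scoped ComplexConjugate

namespace Vale.Agent.P352X.EG.Lg

open Vale.Agent.P352 Vale.Agent.P352.GF Vale.Agent.P352.BW Vale.Agent.P352.H246
open Vale.Agent.P352.H496 Vale.Agent.P352.H755 Vale.Agent.P352.H15
open Vale.Agent.P352X.EB
open UniformSpace (Completion)
open ContinuousLinearMap (adjoint)
open NBa (rd rd_in rd_star)

noncomputable section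

variable {D : Type*} [NormedAddCommGroup D] [InnerProductSpace ℂ D] {ι : Type*}

section net

variable (T : ι → Fld D) {E : Submodule ℂ D} (j : Completion E →L[ℂ] Completion D)

/-- the reduced weak commutants -/
def Cs (O : Set V) : Set (Completion E →L[ℂ] Completion E) :=
  {y | ∃ O', IsOpen O' ∧ O ⊆ O' ∧ ∃ Y ∈ Wc T O', y = rd j Y}

/-- the net -/
def Nn (O : Set V) : VonNeumannAlgebra (Completion E) where
  toStarSubalgebra := StarSubalgebra.centralizer ℂ (Cs T j O)
  centralizer_centralizer' := by simp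

variable {T j} {c : Cg D} (w : WC0 c T)
include w

theorem cs_star (O : Set V) : ∀ y ∈ Cs T j O, star y ∈ Cs T j O := by
  rintro _ ⟨O', h1, h2, Y, hY, rfl⟩
  exact ⟨O', h1, h2, _, w.star O' Y hY, rd_star j Y⟩

theorem mem_nn {O : Set V} {x : Completion E →L[ℂ] Completion E} :
    x ∈ Nn T j O ↔ ∀ y ∈ Cs T j O, y * x = x * y :=
  (StarSubalgebra.mem_centralizer_iff ℂ).trans
    ⟨fun h y hy => (h y hy).1, fun h y hy => ⟨h y hy, h _ (cs_star w O y hy)⟩⟩

end net

theorem nb_thm {c : Cg D} (t : E0 c) {T : ι → Fld D} (hT : HF c T) {E : Submodule ℂ D}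
    {q : Theory E} {τ : ι → Fld E} {a : (V → V) → E → E} {j : Completion E →L[ℂ] Completion D}
    (hl : LIFT (Completion D) (Completion E)) (hb : BIC E) (w : WC0 c T) (s : Sec c T E q τ a j) :
    ∃ N, LNm q a N := by
  have op : ∀ a b : V, IsOpen (Wdg a b 0) := fun a b => by
    have : ∀ a : V, Continuous fun x : V => GF.mdot a (x - 0) := fun a => by
      unfold GF.mdot
      fun_prop
    exact (isOpen_lt (this a) continuous_const).inter (isOpen_lt continuous_const (this b))
  have cm : ∀ a b : V, GF.mdot a b = 1 → GF.mdot b a = 1 := fun a b h => by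
    rw [← h]
    exact Finset.sum_congr rfl fun m _ => by ring
  have jv : j (om q) = c.Om := (s.coe _).trans (congrArg _ s.vac)
  have lf : Lf c j (Nn T j) := fun a b ha hb hab y hy => by
    obtain ⟨x, h1, h2, h3, h4⟩ := hl j (Wc T (Wdg a b 0)) (om q) y s.iso
      (fun Y hY Y' hY' => ⟨w.add _ Y hY Y' hY', w.mul _ (op a b) Y hY Y' hY'⟩)
      (fun Y hY => ⟨w.star _ Y hY, fun z => w.smul _ z Y hY⟩)
      (by
        rw [show j ∘L adjoint j = Pj c T from ContinuousLinearMap.ext s.pj]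
        exact w.pj _)
      ((t.sg.dns a b ha hb hab).mono fun z h => h.imp fun Y h =>
        ⟨w.com _ Y h.1, by rw [jv, h.2]⟩)
      fun Y hY z => (DFunLike.congr_fun
        ((mem_nn w).1 hy _ ⟨_, op a b, subset_rfl, Y, hY, rfl⟩) z).symm
    have hx : x ∈ c.N (Wdg a b 0) := by
      rw [← (c.N _).commutant_commutant, VonNeumannAlgebra.mem_commutant_iff]
      exact fun Y hY => h2 Y (w.com _ Y hY)
    refine ⟨x, hx, ?_, h1, h3, h4⟩
    have h5 := (c.hN.loc b a x hb ha (cm a b hab) hx).1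
    rw [h2 _ (w.gam _), mul_assoc, t.sg.g2, mul_one, ← two_smul ℂ,
      VonNeumannAlgebra.mem_commutant_iff] at h5
    rw [VonNeumannAlgebra.mem_commutant_iff]
    intro g hg
    have := h5 g hg
    rw [mul_smul_comm, smul_mul_assoc] at this
    exact smul_right_injective _ two_ne_zero this
  refine ⟨Nn T j, s.rep, fun O B f hB hf => ?_, fun O O' h X hX => ?_,
    fun r L y O X hX hr hL => ?_, fun a b X ha hb hab hX => ?_⟩
  · obtain ⟨i, rfl⟩ := s.fld B hB
    refine ⟨τ i (bar f), hb (Cs T j O) _ _ _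
      ⟨_, isOpen_univ, Set.subset_univ _, 1, w.one _, ContinuousLinearMap.ext fun z =>
        (s.iso z).symm⟩ ?_ (cs_star w O) (fun x => (mem_nn w).2) (fun v u => ?_) ?_⟩
    · rintro _ ⟨O1, a1, a2, Y, hY, rfl⟩ _ ⟨O2, b1, b2, Y', hY', rfl⟩
      have o := a1.inter b1
      refine ⟨_, o, Set.subset_inter a2 b2, Y * Pj c T * Y', w.mul _ o _ (w.mul _ o _
        (w.anti _ _ Set.inter_subset_left Y hY) _ (w.pj _)) _
        (w.anti _ _ Set.inter_subset_right Y' hY'), ContinuousLinearMap.ext fun z => ?_⟩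
      show adjoint j (Y (j (adjoint j _))) = adjoint j (Y (Pj c T _))
      rw [s.pj]
      rfl
    · rw [Submodule.coe_inner, Submodule.coe_inner, s.eq _ _ _ hf.1, s.eq _ _ _ (isTest_bar hf.1)]
      exact hT.herm i f v u hf.1
    · rintro _ ⟨O1, -, a2, Y, hY, rfl⟩ v u
      rw [rd_in, rd_in, s.coe, s.coe, s.coe, s.coe, s.eq _ _ _ hf.1,
        s.eq _ _ _ (isTest_bar hf.1)]
      exact hY i f ⟨hf.1, hf.2.1, hf.2.2.trans a2⟩ v u
  · exact (mem_nn w).2 fun y ⟨O1, a1, a2, e⟩ => (mem_nn w).1 hX y ⟨O1, a1, h.trans a2, e⟩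
  · obtain ⟨W, hW⟩ := (ublock s.rep).lin r L y hr hL
    let g : Sh c := ⟨⟨r, L, y, hr, hL⟩, false⟩
    have e : ∀ z, j (W z) = g.U c (j z) := fun z => by
      rw [hW, ← Ug_apply q hr hL, s.U _ _ _ _ hr hL]
      rfl
    refine ⟨(W : Completion E →L[ℂ] Completion E) ∘L X ∘L (W.symm : Completion E →L[ℂ] Completion E),
      (mem_nn w).2 ?_, fun z => by simp [← hW]⟩
    rintro _ ⟨O1, a1, a2, Y, hY, rfl⟩
    have k : ∀ z, rd j Y (W z) = W (rd j (star (g.U c) * Y * g.U c) z) := fun z => by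
      refine ext_inner_left ℂ fun u => ?_
      obtain ⟨u, rfl⟩ := W.surjective u
      rw [W.inner_map_map, rd_in, rd_in, e, e, ContinuousLinearMap.star_eq_adjoint]
      exact (ContinuousLinearMap.adjoint_inner_right _ _ _).symm
    have h := (mem_nn w).1 hX _ ⟨g.act ⁻¹' O1, a1.preimage (by
      show Continuous fun x => sim r L y x
      unfold sim
      fun_prop), Set.image_subset_iff.1 a2, _, w.cov g O1 Y hY, rfl⟩
    refine ContinuousLinearMap.ext fun z => ?_
    obtain ⟨z, rfl⟩ := W.surjective z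
    show rd j Y (W (X (W.symm (W z)))) = W (X (W.symm (rd j Y (W z))))
    rw [k, k, W.symm_apply_apply, W.symm_apply_apply]
    exact congrArg W (DFunLike.congr_fun h z)
  · obtain ⟨x, h1, -, -, h3, -⟩ := lf b a hb ha (cm a b hab) X hX
    rw [VonNeumannAlgebra.mem_commutant_iff]
    intro y hy
    obtain ⟨x', -, h4, -, h5, -⟩ := lf a b ha hb hab y hy
    refine ContinuousLinearMap.ext fun z => ?_
    have := DFunLike.congr_fun (VonNeumannAlgebra.mem_commutant_iff.1 h4 x h1) (j z)
    show y (X z) = X (y z)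
    rw [← s.iso (y _), ← s.iso (X (y z)), ← h5, ← h3, ← h3, ← h5]
    exact congrArg _ this.symm

/-- the vacuum separates the fields of the family -/
theorem sep {c : Cg D} (t : E0 c) {T : ι → Fld D} (w : WC0 c T) {i i' : ι}
    (h : ∀ f, IsTest f → T i f c.Q.vac = T i' f c.Q.vac) {f : Fn} (hf : In Set.univ f) (v : D) :
    T i f v = T i' f v := by
  obtain ⟨g, hg⟩ := t.sg.ex _ hf.bar.2.1.isCompact.isBounded
  have hi : In (g.act ⁻¹' W0) (bar f) := ⟨hf.bar.1, hf.bar.2.1, hg⟩
  have e : g.U c (T i f v : D) = g.U c (T i' f v : D) := by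
    refine ext_inner_right ℂ (congrFun (Continuous.ext_on t.sg.dense (by fun_prop) (by fun_prop) ?_))
    rintro _ ⟨Y, hY, rfl⟩
    have k := fun i => w.cov g W0 Y (w.com _ Y hY) i _ hi c.Q.vac v
    simp only [bar_bar, ContinuousLinearMap.mul_apply, ContinuousLinearMap.star_eq_adjoint,
      ContinuousLinearMap.adjoint_inner_right,
      show g.U c (c.Q.vac : Completion D) = c.Om from (t.sg.vac g).1] at k
    beta_reduce
    rw [k, k, h _ hi.1]
  have u1 : ∀ z, star (g.U c) (g.U c z) = z := fun z => DFunLike.congr_fun (t.sg.uni g).1 z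
  exact Completion.coe_injective D ((u1 _).symm.trans ((congrArg _ e).trans (u1 _)))

end

end Vale.Agent.P352X.EG.Lg
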