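import Vale.Agent.P352L.Gd.Hull
import Vale.Agent.P352L.Gd.NB
import Vale.Agent.P352L.Wire

/-!
# P352L, block Gd: no logarithms in dimension four, for graded theories with energy bounds
-/

set_option linter.all false

open Filter Topology MeasureTheory
open scoped ComplexConjugate

namespace Vale.Agent.P352L.Gd

open Vale.Agent.P352X
open Vale.Agent.P352 Vale.Agent.P352.GF Vale.Agent.P352.BW Vale.Agent.P352.H246
open Vale.Agent.P352.H496 Vale.Agent.P352.H755 Vale.Agent.P352.H15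
open UniformSpace (Completion)
open StA EG.Lg

noncomputable section

variable {D : Type*} [NormedAddCommGroup D] [InnerProductSpace ℂ D] {c : EG.Cg D}
  {TT : ℝ → Ix → Ix → Fld D} {n0 : ℕ}

/-- the family, with one index -/
abbrev un (TT : ℝ → Ix → Ix → Fld D) (p : ℝ × Ix × Ix) : Fld D := TT p.1 p.2.1 p.2.2

theorem hf_of (hF : Fam c.Q TT n0) : HF c (un TT) where
  bose p := (hF.st _).bose _ _
  herm p := (hF.st _).herm _ _
  cov p s L a hs hL := ⟨fun q => L q.1 p.2.1 * L q.2 p.2.2, fun q => (p.1 - Real.log s, q),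
    fun f v hf => by
      have := hF.cov (p.1 - Real.log s) p.2.1 p.2.2 s L a f v hs hL hf
      rw [sub_add_cancel] at this
      rw [Fintype.sum_prod_type]
      simpa only [Complex.ofReal_mul] using this⟩

section sec

variable {E : Submodule ℂ D} {q : Theory E} {t : ℝ × Ix × Ix → Fld E} {a : (V → V) → E → E}
  {j : Completion E →L[ℂ] Completion D} (s : Sec c (un TT) E q t a j) (hF : Fam c.Q TT n0)
include s hF

theorem sec_cov (τ : ℝ) (m n : Ix) {r : ℝ} {L : Ix → V} (y : V) {f : Fn} (v : E) (hr : 0 < r)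
    (hL : IsLor L) (hf : IsTest f) : t (τ + Real.log r, m, n) f (q.U r L y v) =
      ∑ k, ∑ l, (L k m * L l n : ℂ) • q.U r L y (t (τ, k, l) (fun x => f (sim r L y x)) v) := by
  refine Subtype.ext ?_
  simp only [Submodule.coe_sum, Submodule.coe_smul, s.eq _ _ _ hf, s.qU _ _ _ _ hr hL,
    s.eq _ _ _ (Ap.test_sim hr hL y hf)]
  exact hF.cov τ m n r L y f v hr hL hf

theorem sec_fam : Fam q (fun τ m n => t (τ, m, n)) n0 := by
  have fl := (hf_of hF).fld
  refine ⟨fun τ => ⟨fun m n => s.bose _, fun m n f v hf => Subtype.ext ?_, fun m n f v w hf => ?_,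
    fun m n L y f v hL hf => ?_, fun n f v hf => Subtype.ext ?_, ?_⟩,
    fun τ m n r L y f v hr hL hf => sec_cov s hF τ m n y v hr hL hf,
    fun m n f v hf => .of_lag (a := fun i => t (i, m, n) f v) fun τ => Subtype.ext ?_⟩
  · rw [s.eq _ _ _ hf, s.eq _ _ _ hf]
    exact (hF.st τ).symm m n f v hf
  · rw [Submodule.coe_inner, Submodule.coe_inner, s.eq _ _ _ hf, s.eq _ _ _ (isTest_bar hf)]
    exact (hF.st τ).herm m n f v w hf
  · simpa only [Real.log_one, add_zero] using sec_cov s hF τ m n y v one_pos hL hf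
  · simp only [Submodule.coe_sum, fun m => s.eq (τ, m, n) _ v (Ap.test_pd m hf)]
    exact (hF.st τ).conserved n f v hf
  · intro F n B f v w h0 hB hf hc
    obtain ⟨i, rfl⟩ := s.fld B hB
    have h1 := (hF.st τ).charge F n _ f v w h0 (fl i) hf hc
    rw [Submodule.coe_inner, Submodule.coe_smul, s.eq _ _ _ (Ap.test_pd n hf)]
    refine h1.congr' ((isTest_cutoff h0).mono fun R hR => ?_)
    simp only [Submodule.coe_inner, Submodule.coe_sub, s.eq _ _ _ hf, s.eq _ _ _ hR]
  · simp only [← Complex.coe_smul, Submodule.coe_sum, Submodule.coe_smul, s.eq _ _ _ hf]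
    simpa only [← Complex.coe_smul] using (hF.pol m n f v hf).lag_eq τ

theorem sec_pch {τ : ℝ} (hP : ND.PCh c.Q (TT τ) c.A) : ND.PCh q (fun m n => t (τ, m, n)) a := by
  intro F X B f v w h0 hX hB hf hc
  obtain ⟨i, rfl⟩ := s.fld B hB
  have h1 := hP F X _ f v w h0 hX ((hf_of hF).fld i) hf hc
  rw [Submodule.coe_inner, Submodule.coe_sub, s.qA _ _ _ hX, s.eq _ _ _ hf, s.eq _ _ _ hf,
    s.qA _ _ _ hX]
  refine h1.congr' ((isTest_cutoff h0).mono fun R hR => ?_)
  simp only [Submodule.coe_inner, Submodule.coe_sub, s.eq _ _ _ hf, ND.cur, Submodule.coe_sum,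
    fun n z => s.eq (τ, o, n) _ z (EG.Sct.test_cur hX n hR)]

theorem sec_tfg : TfGen q := fun S h0 h1 => s.cyc S h0 fun p f v hf hv =>
  h1 2 (fun μ => t (p.1, μ 0, μ 1)) ![p.2.1, p.2.2] f v
    ⟨fun μ => q.bose_fld _ (s.bose _), fun μ L f v hL hf => by
      beta_reduce
      rw [((sec_fam s hF).st p.1).cov _ _ L 0 f v hL hf, ← Fintype.sum_prod_type']
      refine (Fintype.sum_equiv (finTwoArrowEquiv Ix) _ _ fun ν => ?_).symm
      simp [Fin.prod_univ_two]⟩ hf hv

end sec

/-- **reduction to contexts**, for graded theories with energy bounds -/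
theorem nolog_of (fin : ∀ (E : Submodule ℂ D) (c : Ctx E) x m n f v, IsTest f →
      c.TT x m n f v = c.TT 0 m n f v)
    (Q : Theory D) (G : D → D) (T : Ix → Ix → Fld D) (hT : Stress0 Q T) (A : (V → V) → D → D)
    (hA : ND.PCh Q T A) (hF : FSL Q) (Γ : Completion D →L[ℂ] Completion D)
    (N : Set V → VonNeumannAlgebra (Completion D)) (hN : LNg Q G A Γ N) (hU : L.UVac Q)
    (hE : EBd Q) : NoLog Q T := by
  choose F C hC using fun m n => hF (T m n) (Q.bose_fld _ (hT.bose m n))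
  obtain ⟨n0, h1, h2⟩ := fam (c := ⟨Q, G, A, Γ, N, hN⟩) hF hT hA hC
  let c : EG.Cg D := ⟨hull Q, G, A, Γ, N, lng hN⟩
  have t := EG.e0_thm c
  have hf := hf_of (c := c) h1
  have w := wc_thm t (EG.gr_row t) (ebd hE) hf
  have s := Hy.sec ⟨t, hf, w.pj _⟩
  obtain ⟨N', hN'⟩ := nb_thm t hf (EG.lift_row _ _) (EG.bic_row _) w s
  obtain ⟨b, e1, e2, -⟩ := ex_base _ _ N' (sec_tfg s h1) hN' (s.uv hU)
  have f1 := sec_fam s h1
  have f2 := fun τ => sec_pch s h1 (h2 τ)
  rw [← e1] at f1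
  rw [← e2] at f2
  obtain ⟨LL, l1, l2⟩ := ex_pot b f1
  have k := fin _ (ctx0 b f1 (fun τ => e1 ▸ f2 τ) l1 l2)
  refine nolog hT hC (fun m n h => triv (c := c) hU (h1.st 0) (h2 0) h) fun x m n f v hf' => ?_
  refine sub_eq_zero.1 (ext_in (u := fun f => un _ (x, m, n) f v - un _ (0, m, n) f v)
    ((c.Q.cont _ v (hf.fld _)).sub (c.Q.cont _ v (hf.fld _))) (fun g hg => sub_eq_zero.2
      (sep t w (fun g hg => ?_) hg v)) hf')
  rw [← s.vac, ← s.eq _ _ _ hg, ← s.eq _ _ _ hg]
  exact congrArg _ (k x m n g _ hg)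

/-- **there are no logarithms in dimension four** -/
theorem nologG (l : ∀ E : Submodule ℂ D, Last E) (Q : Theory D) (G : D → D)
    (T : Ix → Ix → Fld D) (hT : Stress0 Q T) (A : (V → V) → D → D) (hA : ND.PCh Q T A)
    (hF : FSL Q) (Γ : Completion D →L[ℂ] Completion D)
    (N : Set V → VonNeumannAlgebra (Completion D)) (hN : LNg Q G A Γ N) (hU : L.UVac Q)
    (hE : EBd Q) : NoLog Q T :=
  nolog_of (fun E c => end_of c ((l E).rows.t3 c) ((l E).rows.main c)) Q G T hT A hA hF Γ N hN hU hE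

end

end Vale.Agent.P352L.Gd
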