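import Vale.Agent.P352X.CL.Pub

namespace Vale.Agent.P352L

open P352 GF

/-- `A X` is the generator of the similitudes with velocity field `X`, on the domain `D`. -/
def Gnr {D : Type*} [NormedAddCommGroup D] [InnerProductSpace ℂ D] (Q : Theory D)
    (A : (V → V) → D → D) : Prop :=
  ∀ (s : ℝ → ℝ) (L : ℝ → Ix → V) (a : ℝ → V) X v, s 0 = 1 → L 0 = one → a 0 = 0 →
    (∀ e, 0 < s e ∧ IsLor (L e)) →
    (∀ n x, HasDerivAt (fun e => sim (s e) (L e) (a e) x n) (X x n) 0) →
    HasDerivAt (fun e => Q.U (s e) (L e) (a e) v) (Complex.I • A X v) 0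

end Vale.Agent.P352L
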