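import Vale.Agent.P352L.Gd.WC
import Vale.Agent.P352X.EG.SEC

/-!
# P352L, block Gd: the sector of a family of hermitian Bose fields
-/

set_option linter.all false

open MeasureTheory Filter Topology
open scoped SchwartzMap ComplexConjugate ContDiff

namespace Vale.Agent.P352X.EG.Lg

open Vale.Agent.P352 Vale.Agent.P352.GF Vale.Agent.P352.BW Vale.Agent.P352.H246
open Vale.Agent.P352.H496 Vale.Agent.P352.H755 Vale.Agent.P352.H15
open Vale.Agent.P352.SubConf (IsAdj)
open Vale.Agent.P352X.EB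
open UniformSpace (Completion)
open Complex (I)
open ContinuousLinearMap (adjoint)
open Sct (ev_sch der_iso der_mem)

noncomputable section

variable {D : Type*} [NormedAddCommGroup D] [InnerProductSpace ℂ D] {ι : Type*} {c : Cg D}
  {T : ι → Fld D}

variable (c T) in
/-- the sector: a theory `q` of Bose fields `t` on `E`, embedded by `j` -/
structure Sec (E : Submodule ℂ D) (q : Theory E) (t : ι → Fld E) (a : (V → V) → E → E)
    (j : Completion E →L[ℂ] Completion D) : Prop where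
  coe : ∀ v : E, j v = ((v : D) : Completion D)
  iso : ∀ z, ContinuousLinearMap.adjoint j (j z) = z
  pj : ∀ z, j (ContinuousLinearMap.adjoint j z) = Pj c T z
  vac : (q.vac : D) = c.Q.vac
  U : ∀ s L y z, 0 < s → IsLor L → j (Ug q s L y z) = Ug c.Q s L y (j z)
  qU : ∀ s L y v, 0 < s → IsLor L → (q.U s L y v : D) = c.Q.U s L y v
  qA : ∀ r X v, IsSim r X → (a X v : D) = c.A X v
  eq : ∀ i f v, IsTest f → (t i f v : D) = T i f v
  fld : ∀ B, q.fld B → ∃ i, B = t i
  bose : ∀ i, q.bose (t i)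
  rep : Rep q a
  cyc : ∀ S : Submodule ℂ E, q.vac ∈ S → (∀ i f v, IsTest f → v ∈ S → t i f v ∈ S) →
    Dense (S : Set E)
  uv : UVac c.Q → UVac q

/-! ## the domain -/

variable (c T) in
/-- the vectors of `D` in the sector -/
def ES : Submodule ℂ D := (HB c T).comap (Completion.toComplL : D →L[ℂ] Completion D).toLinearMap

lemma mem_EE {v : D} : v ∈ ES c T ↔ (v : Completion D) ∈ HB c T := Iff.rfl

lemma S0_le {S : Submodule ℂ D} (h0 : c.Q.vac ∈ S)
    (h : ∀ i f v, IsTest f → v ∈ S → T i f v ∈ S) : S0 c T ≤ S := sInf_le ⟨h0, h⟩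

lemma vac_S0 : c.Q.vac ∈ S0 c T := Submodule.mem_sInf.2 fun _ h => h.1

lemma S0_EE : S0 c T ≤ ES c T := fun v hv =>
  Submodule.le_topologicalClosure _ (Submodule.mem_map_of_mem hv)

lemma HB_ind {A : Set (Completion D)} (hA : IsClosed A)
    (h : ∀ v ∈ S0 c T, (v : Completion D) ∈ A) : ∀ z ∈ HB c T, z ∈ A := fun z hz =>
  closure_minimal (by rintro _ ⟨v, hv, rfl⟩; exact h v hv) hA hz

lemma HB_closed : IsClosed (HB c T : Set (Completion D)) := Submodule.isClosed_topologicalClosure _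

/-- the hypotheses -/
structure Hy (c : Cg D) (T : ι → Fld D) : Prop where
  t : E0 c
  st : HF c T
  pj : Pj c T ∈ Wc T Set.univ

variable (h : Hy c T)
include h

lemma Hy.T0 (i : ι) {f : Fn} (hf : In Set.univ f) {v : D} (hv : v ∈ ES c T) :
    T i f v ∈ ES c T := by
  refine mem_EE.2 (Submodule.starProjection_eq_self_iff.1 (ext_inner_left ℂ fun z => ?_))
  refine Completion.induction_on z (isClosed_eq (by fun_prop) (by fun_prop)) fun w => ?_
  have h1 := h.pj i f hf v w
  rw [Pj, Submodule.starProjection_eq_self_iff.2 (mem_EE.1 hv), Completion.inner_coe,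
    h.st.herm i _ _ _ (isTest_bar hf.1), bar_bar] at h1
  exact h1.symm.trans (Completion.inner_coe _ _).symm

lemma Hy.Tm (i : ι) {f : Fn} (hf : IsTest f) {v : D} (hv : v ∈ ES c T) :
    T i f v ∈ ES c T := by
  obtain ⟨g, rfl⟩ := hf
  have h1 := ((Completion.continuous_coe D).comp
    (c.Q.cont _ v (h.st.fld i))).continuousAt.tendsto.comp (h.t.ana.lim g)
  refine HB_closed.mem_of_tendsto h1 (Eventually.of_forall fun R => ?_)
  have h2 := h.t.ana.inn R (ev g) ⟨g, rfl⟩
  change ((T i (ev (sch (cutf R (ev g)))) v : D) : Completion D) ∈ HB c T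
  rw [ev_sch h2.1]
  exact h.T0 i ⟨h2.1, h2.2.1, Set.subset_univ _⟩ hv

lemma Hy.gam : ∀ z ∈ HB c T, c.Γ z = z := by
  let S : Submodule ℂ D :=
    { carrier := {v | c.G v = v}
      add_mem' := fun {a b} ha hb => by
        change c.G _ = _ at ha hb ⊢
        rw [h.t.bas.gadd, ha, hb]
      zero_mem' := by simpa using h.t.bas.gsmul 0 0
      smul_mem' := fun z a ha => by
        change c.G _ = _ at ha ⊢
        rw [h.t.bas.gsmul, ha] }
  have h1 : S0 c T ≤ S := S0_le c.hN.vac fun i f v hf hv => by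
    change c.G _ = _ at hv ⊢
    rw [← c.hN.bose _ f v (h.st.bose i) hf, hv]
  refine HB_ind (A := {z | c.Γ z = z}) (isClosed_eq c.Γ.continuous continuous_id) fun v hv => ?_
  change c.Γ _ = _
  rw [c.hN.ext, show c.G v = v from h1 hv]

lemma Hy.gamv {v : D} (hv : v ∈ ES c T) : c.G v = v :=
  Completion.coe_injective D ((c.hN.ext v).symm.trans (h.gam _ hv))

lemma Hy.star0 (g : Sg) : ∀ z ∈ HB c T, star (Ug c.Q g.s g.L g.a) z ∈ HB c T := by
  let g0 : Sh c := ⟨g, false⟩
  have hu : ∀ z, star (g0.U c) (g0.U c z) = z := fun z =>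
    congrArg (fun X : Completion D →L[ℂ] Completion D => X z) (h.t.sg.uni g0).1
  have hu' : ∀ z, g0.U c (star (g0.U c) z) = z := fun z =>
    congrArg (fun X : Completion D →L[ℂ] Completion D => X z) (h.t.sg.uni g0).2
  have hc : ∀ v : D, g0.U c v = (c.Q.U g.s g.L g.a v : D) := fun v =>
    h.t.sg.coe _ _ _ v g.hs g.hL
  let S : Submodule ℂ D :=
    (HB c T).comap (star (g0.U c) ∘L (Completion.toComplL : D →L[ℂ] Completion D)).toLinearMap
  have hS : ∀ v : D, v ∈ S ↔ star (g0.U c) (v : Completion D) ∈ HB c T := fun v => Iff.rfl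
  have h1 : S0 c T ≤ S := by
    refine S0_le ((hS _).2 ?_) fun i f v hf hv => (hS _).2 ?_
    · rw [show star (g0.U c) (c.Q.vac : Completion D) = c.Om from (h.t.sg.vac g0).2]
      exact S0_EE vac_S0
    · obtain ⟨w, hw⟩ := h.t.sg.sur g0.inv v
      rw [h.t.sg.U_inv] at hw
      have hw' : w ∈ ES c T := by
        rw [mem_EE, ← hw]
        exact (hS _).1 hv
      have hv' : v = c.Q.U g.s g.L g.a w := Completion.coe_injective D (by rw [← hc, ← hw, hu'])
      obtain ⟨κ, b, e⟩ := h.st.cov i g.s g.L g.a g.hs g.hL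
      rw [hv', e f w hf]
      change star (g0.U c) ((Completion.toComplL : D →L[ℂ] Completion D) _) ∈ _
      simp only [map_sum, map_smul]
      refine Submodule.sum_mem _ fun p _ => Submodule.smul_mem _ _ ?_
      rw [Completion.coe_toComplL, ← hc, hu]
      exact h.Tm (b p) (Grp.test_sim g.hs g.hL g.a hf) hw'
  exact HB_ind (A := {z | star (g0.U c) z ∈ HB c T})
    (HB_closed.preimage (star (g0.U c)).continuous) fun v hv => (hS v).1 (h1 hv)

lemma Hy.star1 (g : Sh c) : ∀ z ∈ HB c T, star (g.U c) z ∈ HB c T := by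
  obtain ⟨g, e⟩ := g
  cases e
  · exact h.star0 g
  · intro z hz
    change star (c.Γ * Ug c.Q g.s g.L g.a) z ∈ _
    rw [star_mul, h.t.sg.gs, ContinuousLinearMap.mul_apply, h.gam z hz]
    exact h.star0 g z hz

lemma Hy.Um {s : ℝ} {L : Ix → V} (hs : 0 < s) (hL : IsLor L) (a : V) {v : D} (hv : v ∈ ES c T) :
    c.Q.U s L a v ∈ ES c T := by
  have h1 := h.star1 (Sh.inv ⟨⟨s, L, a, hs, hL⟩, false⟩) _ hv
  rw [h.t.sg.U_inv, star_star] at h1
  rw [mem_EE, ← h.t.sg.coe s L a v hs hL]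
  exact h1

lemma Hy.Ad {s : ℝ → ℝ} {L : ℝ → Ix → V} {a : ℝ → V} {X : V → V} {v : D} (hv : v ∈ ES c T)
    (h1 : ∀ e, 0 < s e ∧ IsLor (L e))
    (h2 : HasDerivAt (fun e => c.Q.U (s e) (L e) (a e) v) (I • c.A X v) 0) :
    c.A X v ∈ ES c T :=
  ((ES c T).smul_mem_iff Complex.I_ne_zero).1
    (der_mem (HB c T) h2 fun e => h.Um (h1 e).1 (h1 e).2 _ hv)

lemma Hy.Am {r : ℝ} {X : V → V} (hX : IsSim r X) {v : D} (hv : v ∈ ES c T) :
    c.A X v ∈ ES c T := by
  obtain ⟨b, w, hw, hX⟩ := hX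
  obtain ⟨s, L, a, K⟩ := H746.exists_crv hw r b
  exact h.Ad hv (fun e => ⟨K.sp e, K.lor e⟩) (c.hN.der s L a X v K.s0 K.L0 K.a0
    (fun e => ⟨K.sp e, K.lor e⟩) fun n x => K.dX hX n x)

omit h

/-! ## the theory -/

open Classical in
variable (c T) in
/-- restriction to the sector -/
def rs (v : D) : ES c T := if hv : v ∈ ES c T then ⟨v, hv⟩ else 0

lemma rs_coe {v : D} (hv : v ∈ ES c T) : (rs c T v : D) = v := by rw [rs, dif_pos hv]

variable (c T) in
/-- the fields -/
def tt (i : ι) : Fld (ES c T) := fun f v => rs c T (T i f v)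

variable (c T) in
/-- the similitudes -/
def uu (s : ℝ) (L : Ix → V) (a : V) (v : ES c T) : ES c T := rs c T (c.Q.U s L a v)

variable (c T) in
/-- the generators -/
def aa (X : V → V) (v : ES c T) : ES c T := rs c T (c.A X v)

include h

lemma Hy.tc (i : ι) {f : Fn} (hf : IsTest f) (v : ES c T) :
    (tt c T i f v : D) = T i f v := rs_coe (h.Tm i hf v.2)

lemma Hy.uc {s : ℝ} {L : Ix → V} (hs : 0 < s) (hL : IsLor L) (a : V) (v : ES c T) :
    (uu c T s L a v : D) = c.Q.U s L a v := rs_coe (h.Um hs hL a v.2)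

lemma Hy.ac {r : ℝ} {X : V → V} (hX : IsSim r X) (v : ES c T) :
    (aa c T X v : D) = c.A X v := rs_coe (h.Am hX v.2)

lemma Hy.cyc (S : Submodule ℂ (ES c T)) (h0 : ⟨c.Q.vac, S0_EE vac_S0⟩ ∈ S)
    (h1 : ∀ i f v, IsTest f → v ∈ S → tt c T i f v ∈ S) : Dense (S : Set (ES c T)) := by
  have h2 : S0 c T ≤ S.map (ES c T).subtype := by
    refine S0_le ⟨_, h0, rfl⟩ ?_
    rintro i f _ hf ⟨v, hv, rfl⟩
    exact ⟨_, h1 i f v hf hv, h.tc i hf v⟩
  intro v
  refine Metric.mem_closure_iff.2 fun ε hε => ?_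
  obtain ⟨_, ⟨w, hw, rfl⟩, hd⟩ := Metric.mem_closure_iff.1 (mem_EE.1 v.2) ε hε
  obtain ⟨u, hu, rfl⟩ := h2 hw
  exact ⟨u, hu, (Completion.dist_eq (v : D) (u : D)).symm.trans_lt hd⟩

/-- the theory of the sector -/
def Hy.q : Theory (ES c T) where
  vac := ⟨c.Q.vac, S0_EE vac_S0⟩
  fld B := ∃ i, B = tt c T i
  bose B := ∃ i, B = tt c T i
  U := uu c T
  norm_vac := c.Q.norm_vac
  cyclic S h0 h1 := h.cyc S h0 fun i f v hf hv => h1 _ f v ⟨i, rfl⟩ hf hv
  lin := by
    rintro _ f g z v ⟨i, rfl⟩ hf hg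
    refine Subtype.ext ?_
    have h1 := c.Q.lin _ f g z v (h.st.fld i) hf hg
    rw [Submodule.coe_add, Submodule.coe_smul, h.tc i hf, h.tc i hg, ← h1]
    refine rs_coe ?_
    rw [h1]
    exact add_mem (h.Tm i hf v.2) (Submodule.smul_mem _ _ (h.Tm i hg v.2))
  cont := by
    rintro _ v ⟨i, rfl⟩
    refine continuous_induced_rng.2 ((c.Q.cont _ v (h.st.fld i)).congr fun g => ?_)
    exact (h.tc i ⟨g, rfl⟩ v).symm
  adj := by
    rintro _ ⟨i, rfl⟩
    refine ⟨_, ⟨i, rfl⟩, fun f v w hf => ?_⟩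
    rw [Submodule.coe_inner, Submodule.coe_inner, h.tc i hf, h.tc i (isTest_bar hf)]
    exact h.st.herm i f v w hf
  bose_fld _ h := h
  loc := by
    rintro _ _ f g v ⟨i, rfl⟩ ⟨k, rfl⟩ hf hg hs
    refine Subtype.ext ?_
    rw [h.tc i hf, h.tc k hg, h.tc k hg, h.tc i hf]
    exact c.Q.loc _ _ f g v (h.st.bose i) (h.st.fld k) hf hg hs
  U_inner s L a v w hs hL := by
    rw [Submodule.coe_inner, Submodule.coe_inner, h.uc hs hL, h.uc hs hL]
    exact c.Q.U_inner s L a v w hs hL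
  U_vac s L a hs hL := Subtype.ext ((h.uc hs hL a _).trans (c.Q.U_vac s L a hs hL))
  transl := by
    rintro _ a f v ⟨i, rfl⟩ hf
    refine Subtype.ext ?_
    rw [h.tc i hf, h.uc one_pos H496.isLor_one, h.uc one_pos H496.isLor_one,
      h.tc i (Grp.test_sim one_pos H496.isLor_one a hf)]
    exact c.Q.transl _ a f v (h.st.fld i) hf
  spectrum v := by
    obtain ⟨ν, h1, h2, h3⟩ := c.Q.spectrum v
    exact ⟨ν, h1, h2, fun a => by rw [Submodule.coe_inner, h.uc one_pos H496.isLor_one, h3]⟩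

lemma Hy.qU {s : ℝ} {L : Ix → V} (hs : 0 < s) (hL : IsLor L) (a : V) (v : ES c T) :
    (h.q.U s L a v : D) = c.Q.U s L a v := h.uc hs hL a v

lemma Hy.rep : Rep h.q (aa c T) where
  mul s L a s' L' a' v hs hs' hL hL' := by
    refine Subtype.ext ?_
    rw [h.qU hs hL, h.qU hs' hL', h.qU (mul_pos hs hs') (ue_lor hL hL')]
    rcases c.hN.mul s L a s' L' a' hs hs' hL hL' with h1 | h1
    · exact h1 v
    · rw [h1.2.2 v]
      exact h.gamv (h.Um (mul_pos hs hs') (ue_lor hL hL') _ v.2)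
  add r r' z X X' v hX hX' := by
    refine Subtype.ext ?_
    have h1 := c.hN.add r r' z X X' v hX hX'
    rw [Submodule.coe_add, Submodule.coe_smul, h.ac hX, h.ac hX', ← h1]
    refine rs_coe ?_
    rw [h1]
    exact add_mem (h.Am hX v.2) (Submodule.smul_mem _ _ (h.Am hX' v.2))
  der s L a X v h0 h1 h2 h3 h4 := by
    have h5 := c.hN.der s L a X v h0 h1 h2 h3 h4
    refine der_iso (ES c T).subtypeₗᵢ ?_
    have h6 : ((I • aa c T X v : ES c T) : D) = I • c.A X v := by
      rw [Submodule.coe_smul, aa, rs_coe (h.Ad v.2 h3 h5)]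
    simp only [Submodule.coe_subtypeₗᵢ, Submodule.coe_subtype, h6, fun e =>
      h.qU (h3 e).1 (h3 e).2 (a e) v]
    exact h5

omit h

/-! ## the embedding -/

variable (c T) in
/-- the embedding of the sector -/
def jj : Completion (ES c T) →L[ℂ] Completion D := (ES c T).subtypeL.completion

lemma jj_coe (v : ES c T) : jj c T v = ((v : D) : Completion D) :=
  (ES c T).subtypeL.completion_apply_coe v

lemma jj_inner (z w : Completion (ES c T)) : inner ℂ (jj c T z) (jj c T w) = inner ℂ z w :=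
  Completion.induction_on₂ z w (isClosed_eq (by fun_prop) (by fun_prop)) fun a b => by
    rw [jj_coe, jj_coe, Completion.inner_coe, Completion.inner_coe, Submodule.coe_inner]

lemma jj_iso (z : Completion (ES c T)) : adjoint (jj c T) (jj c T z) = z :=
  ext_inner_left ℂ fun w => by rw [ContinuousLinearMap.adjoint_inner_right, jj_inner]

lemma jj_mem (z : Completion (ES c T)) : jj c T z ∈ HB c T :=
  Completion.induction_on z (HB_closed.preimage (jj c T).continuous) fun v => by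
    rw [jj_coe]
    exact v.2

lemma jj_pj (z : Completion D) : jj c T (adjoint (jj c T) z) = Pj c T z := by
  refine (Submodule.eq_starProjection_of_mem_of_inner_eq_zero (jj_mem _) ?_).symm
  refine HB_ind (A := {w | inner ℂ (z - jj c T (adjoint (jj c T) z)) w = 0})
    (isClosed_eq (by fun_prop) continuous_const) fun v hv => ?_
  change inner ℂ _ _ = _
  rw [← jj_coe ⟨v, S0_EE hv⟩, inner_sub_left, jj_inner, ContinuousLinearMap.adjoint_inner_left,
    sub_self]

include h

lemma Hy.jU {s : ℝ} {L : Ix → V} (hs : 0 < s) (hL : IsLor L) (y : V) (z : Completion (ES c T)) :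
    jj c T (Ue h.q s L y z) = Ue c.Q s L y (jj c T z) :=
  Completion.induction_on z (isClosed_eq ((jj c T).continuous.comp (ue_cont _ _ _))
    ((ue_cont _ _ _).comp (jj c T).continuous)) fun v => by
      rw [ue_coe hs hL, jj_coe, jj_coe, ue_coe hs hL, h.qU hs hL]

lemma Hy.uv (hU : UVac c.Q) : UVac h.q := fun z hz => by
  obtain ⟨a, ha⟩ := hU (jj c T z) fun y => by rw [← h.jU one_pos H496.isLor_one, hz]
  refine ⟨a, ?_⟩
  rw [← jj_iso z, ha, ← jj_iso (a • om h.q), map_smul (jj c T)]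
  exact congrArg (fun w => adjoint (jj c T) (a • w)) (jj_coe h.q.vac).symm

theorem Hy.sec : Sec c T (ES c T) h.q (tt c T) (aa c T) (jj c T) :=
  ⟨jj_coe, jj_iso, jj_pj, rfl,
    fun s L y z hs hL => by rw [Ug_apply _ hs hL, Ug_apply _ hs hL, h.jU hs hL],
    fun s L y v hs hL => h.qU hs hL y v, fun r X v hX => h.ac hX v, fun i f v hf => h.tc i hf v,
    fun _ hB => hB, fun i => ⟨i, rfl⟩, h.rep, h.cyc, h.uv⟩

end

end Vale.Agent.P352X.EG.Lg
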