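import Vale.Agent.P352X.EG.WC

/-!
# P352L, block Gd: the weak commutant of a family of hermitian Bose fields of a graded theory
-/

set_option linter.all false

open MeasureTheory Filter Topology
open scoped SchwartzMap ComplexConjugate ContDiff

namespace Vale.Agent.P352X.EG.Lg

open Vale.Agent.P352 Vale.Agent.P352.GF Vale.Agent.P352.BW Vale.Agent.P352.H246
open Vale.Agent.P352.H496 Vale.Agent.P352.H755 Vale.Agent.P352.H15
open Vale.Agent.P352.SubConf (IsAdj)
open Vale.Agent.P352X.EB
open UniformSpace (Completion)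

noncomputable section

variable {D : Type*} [NormedAddCommGroup D] [InnerProductSpace ℂ D] {ι : Type*}

section defs

variable (c : Cg D) (T : ι → Fld D)

/-- a covariant family of hermitian Bose fields -/
structure HF : Prop where
  bose : ∀ i, c.Q.bose (T i)
  herm : ∀ i, IsAdj (T i) (T i)
  cov : ∀ i s L a, 0 < s → IsLor L → ∃ (κ : Ix × Ix → ℝ) (b : Ix × Ix → ι), ∀ f v, IsTest f →
    T i f (c.Q.U s L a v) =
      ∑ p, (κ p : ℂ) • c.Q.U s L a (T (b p) (fun x => f (sim s L a x)) v)

/-- the polynomials in `T` applied to the vacuum -/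
def S0 : Submodule ℂ D := sInf {S | c.Q.vac ∈ S ∧ ∀ i f v, IsTest f → v ∈ S → T i f v ∈ S}

/-- their closure -/
def HB : Submodule ℂ (Completion D) :=
  ((S0 c T).map (Completion.toComplL : D →L[ℂ] Completion D).toLinearMap).topologicalClosure

instance : (HB c T).HasOrthogonalProjection :=
  haveI : CompleteSpace (HB c T) := (Submodule.isClosed_topologicalClosure _).completeSpace_coe
  inferInstance

/-- the projection on the sector -/
def Pj : Completion D →L[ℂ] Completion D := (HB c T).starProjection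

/-- the weak commutant of `T` in the region `O` -/
def Wc (O : Set V) : Set (Completion D →L[ℂ] Completion D) := {Y | ∀ i f, In O f → ∀ v w : D,
  inner ℂ ((T i (bar f) w : D) : Completion D) (Y v) =
    inner ℂ (w : Completion D) (Y (T i f v : D))}

/-- the properties of the weak commutant -/
structure WC0 : Prop where
  one : ∀ O, 1 ∈ Wc T O
  add : ∀ O, ∀ Y ∈ Wc T O, ∀ Y' ∈ Wc T O, Y + Y' ∈ Wc T O
  smul : ∀ O (s : ℂ), ∀ Y ∈ Wc T O, s • Y ∈ Wc T O
  star : ∀ O, ∀ Y ∈ Wc T O, star Y ∈ Wc T O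
  mul : ∀ O, IsOpen O → ∀ Y ∈ Wc T O, ∀ Y' ∈ Wc T O, Y * Y' ∈ Wc T O
  anti : ∀ O O', O ⊆ O' → ∀ Y ∈ Wc T O', Y ∈ Wc T O
  com : ∀ O, ∀ Y ∈ (c.N O).commutant, Y ∈ Wc T O
  gam : ∀ O, c.Γ ∈ Wc T O
  pj : ∀ O, Pj c T ∈ Wc T O
  cov : ∀ (g : Sh c) O, ∀ Y ∈ Wc T O, Star.star (g.U c) * Y * g.U c ∈ Wc T (g.act ⁻¹' O)

end defs

variable {c : Cg D} {T : ι → Fld D}

theorem HF.fld (hT : HF c T) (i : ι) : c.Q.fld (T i) := c.Q.bose_fld _ (hT.bose i)

theorem herm' (hT : HF c T) (i : ι) {f : Fn} (hf : IsTest f) (v w : D) :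
    inner ℂ ((T i (bar f) w : D) : Completion D) (v : Completion D) =
      inner ℂ (w : Completion D) ((T i f v : D) : Completion D) := by
  rw [Completion.inner_coe, Completion.inner_coe, hT.herm i _ w v (isTest_bar hf), bar_bar]

theorem s0_T {i : ι} {f : Fn} (hf : IsTest f) {s : D} (hs : s ∈ S0 c T) : T i f s ∈ S0 c T :=
  Submodule.mem_sInf.2 fun S hS => hS.2 i f s hf (Submodule.mem_sInf.1 hs S hS)

theorem s0_U (t : E0 c) (hT : HF c T) (a : V) {s : D} (hs : s ∈ S0 c T) :
    c.Q.U 1 GF.one a s ∈ S0 c T := by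
  have k := fun v => t.sg.coe 1 GF.one a v one_pos H496.isLor_one
  let l : D →ₗ[ℂ] D :=
    { toFun := c.Q.U 1 GF.one a
      map_add' := fun v w => Completion.coe_injective D (by
        simp only [Completion.coe_add, ← k, map_add])
      map_smul' := fun z v => Completion.coe_injective D (by
        simp only [Completion.coe_smul, ← k, map_smul, RingHom.id_apply]) }
  refine Submodule.mem_sInf.1 hs ((S0 c T).comap l) ⟨?_, fun i f v hf hv => ?_⟩
  · show c.Q.U 1 GF.one a c.Q.vac ∈ S0 c T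
    rw [c.Q.U_vac 1 _ a one_pos H496.isLor_one]
    exact Submodule.mem_sInf.2 fun S hS => hS.1
  · have h1 := c.Q.transl (T i) a _ v (hT.fld i) (WCp.test_tr hf (-a))
    have h2 : (fun x => f (sim 1 GF.one (-a) (sim 1 GF.one a x))) = f := by
      funext x; rw [HM.sim_tr, HM.sim_tr, add_neg_cancel_right]
    rw [h2] at h1
    show c.Q.U 1 GF.one a (T i f v) ∈ S0 c T
    rw [← h1]
    exact s0_T (WCp.test_tr hf (-a)) hv

theorem pj_mem (u : Completion D) :
    Pj c T u ∈ closure ((fun s : D => (s : Completion D)) '' S0 c T) :=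
  (HB c T).starProjection_apply_mem u

theorem pj_fix {s : D} (hs : s ∈ S0 c T) (u : Completion D) :
    inner ℂ (s : Completion D) (Pj c T u) = inner ℂ (s : Completion D) u := by
  have : (s : Completion D) ∈ HB c T := subset_closure ⟨s, hs, rfl⟩
  rw [Pj, ← Submodule.inner_starProjection_left_eq_right,
    Submodule.starProjection_eq_self_iff.2 this]

theorem cov (t : E0 c) (hT : HF c T) (h : Sh c) (i : ι) : ∃ (κ : Ix × Ix → ℝ) (b : Ix × Ix → ι),
    ∀ f, IsTest f → ∀ v v' : D, (v : Completion D) = h.U c v' →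
      ((T i f v : D) : Completion D) =
        h.U c (∑ p, (κ p : ℂ) • ((T (b p) (h.pull f) v' : D) : Completion D)) := by
  obtain ⟨κ, b, hc⟩ := hT.cov i h.s h.L h.a h.hs h.hL
  refine ⟨κ, b, fun f hf v v' e => ?_⟩
  have k := fun v => t.sg.coe h.s h.L h.a v h.hs h.hL
  have h1 : ((T i f (c.Q.U h.s h.L h.a v') : D) : Completion D) = Ug c.Q h.s h.L h.a
      (∑ p, (κ p : ℂ) • ((T (b p) (h.pull f) v' : D) : Completion D)) := by
    rw [hc f v' hf]
    simp only [map_sum, map_smul, k]
    change Completion.toComplL (𝕜 := ℂ) _ = _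
    simp only [map_sum, map_smul]
    rfl
  unfold Sh.U at e ⊢
  cases he : h.e
  · rw [he, cond_false, k] at e
    rw [cond_false, ← h1, Completion.coe_injective D e]
  · rw [he, cond_true, ContinuousLinearMap.mul_apply, k, c.hN.ext] at e
    rw [cond_true, ContinuousLinearMap.mul_apply, ← h1, Completion.coe_injective D e, c.hN.ext,
      c.hN.bose _ _ _ (hT.bose i) hf]

open WCp (in_tr cont_tr tr0 of_cl test_tr) in
theorem wc_thm (t : E0 c) (gr : GR c) (eb : EBd c.Q) (hT : HF c T) : WC0 c T := by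
  have fl := hT.fld
  refine ⟨fun O i f hf v w => herm' hT i hf.1 v w, fun O Y hY Y' hY' i f hf v w => ?_,
    fun O s Y hY i f hf v w => ?_, fun O Y hY i f hf v w => ?_,
    fun O hO Y hY Y' hY' i f hf v w => ?_,
    fun O O' h Y hY i f hf => hY i f ⟨hf.1, hf.2.1, hf.2.2.trans h⟩,
    fun O Y hY i f hf v w => ?_, fun O i f hf v w => ?_, fun O i f hf v w => ?_,
    fun g O Y hY i f hf v w => ?_⟩
  · simp only [ContinuousLinearMap.add_apply, inner_add_right, hY i f hf, hY' i f hf]
  · simp only [ContinuousLinearMap.smul_apply, inner_smul_right, hY i f hf]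
  · have := hY i _ hf.bar w v
    rw [bar_bar] at this
    rw [ContinuousLinearMap.star_eq_adjoint, ContinuousLinearMap.adjoint_inner_right,
      ContinuousLinearMap.adjoint_inner_right, ← inner_conj_symm, ← this, inner_conj_symm]
  · obtain ⟨ε, hε, h⟩ := in_tr hO hf
    have := gr eb ⊤ (T i) (T i) f (Y' v)
      (fun a => Y' (T i (fun x => f (sim 1 GF.one a x)) v : D)) ε hε (fl i) (fl i)
      (hT.herm i) ⟨hf.1, hf.2.1, Set.subset_univ _⟩ (fun _ _ _ => trivial) (fun _ _ => trivial)
      (by simpa using Completion.denseRange_coe _) (Y'.continuous.comp (cont_tr (fl i) hf.1 v))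
      fun a ha => ⟨by simpa using Completion.denseRange_coe _, fun s _ => hY' i _ (h a ha) v s⟩
    simp only [tr0] at this
    exact of_cl (φ := innerSL ℂ ((T i (bar f) w : D) : Completion D) ∘L Y)
      (ψ := innerSL ℂ (w : Completion D) ∘L Y) this fun s => hY i f hf s w
  · obtain ⟨X', h1, h2⟩ := c.hN.fld O (T i) f (fl i) hf
    rw [← h2 Y hY, show X' w = T i (bar f) w from
      ext_inner_left ℂ fun u => by rw [← h1, hT.herm i f u w hf.1]]
  · rw [c.hN.ext, c.hN.ext, herm' hT i hf.1, c.hN.bose _ _ _ (hT.bose i) hf.1]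
  · have := gr eb (S0 c T) (T i) (T i) f (Pj c T v)
      (fun a => Pj c T (T i (fun x => f (sim 1 GF.one a x)) v : D)) 1 one_pos (fl i) (fl i)
      (hT.herm i) ⟨hf.1, hf.2.1, Set.subset_univ _⟩ (fun a _ => s0_U t hT a)
      (fun _ => s0_T hf.1) (pj_mem _) ((Pj c T).continuous.comp (cont_tr (fl i) hf.1 v))
      fun a _ => ⟨pj_mem _, fun s hs => by
        rw [pj_fix hs, pj_fix (s0_T (isTest_bar (test_tr hf.1 a)) hs), herm' hT i (test_tr hf.1 a)]⟩
    simp only [tr0] at this
    exact of_cl (φ := innerSL ℂ ((T i (bar f) w : D) : Completion D))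
      (ψ := innerSL ℂ (w : Completion D)) this fun s => herm' hT i hf.1 s w
  · have u1 : ∀ z, g.inv.U c (g.U c z) = z := fun z => by
      rw [t.sg.U_inv, ← ContinuousLinearMap.mul_apply, (t.sg.uni g).1]; rfl
    have u2 : ∀ z, g.U c (g.inv.U c z) = z := fun z => by
      rw [t.sg.U_inv, ← ContinuousLinearMap.mul_apply, (t.sg.uni g).2]; rfl
    obtain ⟨v', hv⟩ := t.sg.sur g v
    obtain ⟨w', hw⟩ := t.sg.sur g w
    have hi : In O (g.inv.pull f) := by
      obtain ⟨h1, h2, h3⟩ := t.sg.inn g.inv _ f hf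
      exact ⟨h1, h2, fun x hx => t.sg.act_inv g x ▸ h3 hx⟩
    obtain ⟨κ, b, hc⟩ := cov t hT g.inv i
    have e1 := hc f hf.1 v v' (by rw [← hv, u1])
    have e2 := hc _ (isTest_bar hf.1) w w' (by rw [← hw, u1])
    simp only [ContinuousLinearMap.mul_apply, ContinuousLinearMap.star_eq_adjoint,
      ContinuousLinearMap.adjoint_inner_right]
    rw [e1, e2, u2, u2, hv, hw]
    simp only [sum_inner, inner_sum, map_sum, map_smul, inner_smul_left, inner_smul_right,
      Complex.conj_ofReal]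
    exact Finset.sum_congr rfl fun p _ => congrArg _ (hY (b p) _ hi v' w')

end

end Vale.Agent.P352X.EG.Lg
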